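import Vale.Agent.P088.R2.H238.S3.P3c

/-!
# P088, stage 3, row P3
-/

open MeasureTheory Set
open scoped ContDiff Matrix Topology

noncomputable section

namespace Vale.Agent.P088.R2.H238.S3.P3

open Vale.Agent.P088.LR Vale.Agent.P088.HY Vale.Agent.P088.HY.T3 Vale.Agent.P088.HY.T4
  Vale.Agent.P088.R2.H238.S3

variable {n : ℕ}

/-- The fixed cut-offs. -/
structure Fx (n : ℕ) (ζ χ₁ χ₂ : V n → ℝ) (Oζ : Set (V n)) (D₁ : ℝ) : Prop where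
  z1 : ContDiff ℝ ∞ ζ
  z2 : HasCompactSupport ζ
  z3 : tsupport ζ ⊆ Ao n (98 / 100) 13
  z4 : IsOpen Oζ
  z5 : Ac n (99 / 100) 12 ⊆ Oζ
  z6 : ∀ x ∈ Oζ, ζ x = 1
  z7 : ∀ x, 0 ≤ ζ x ∧ ζ x ≤ 1
  u1 : ContDiff ℝ ∞ χ₁
  u3 : tsupport χ₁ ⊆ Ao n (97 / 100) 14
  u6 : ∀ x ∈ Ac n (98 / 100) 13, χ₁ x = 1
  u7 : ∀ x, |χ₁ x| ≤ 1
  v1 : ContDiff ℝ ∞ χ₂
  v2 : HasCompactSupport χ₂
  v3 : tsupport χ₂ ⊆ Ao n (96 / 100) 15
  v6 : ∀ x ∈ Ac n (97 / 100) 14, χ₂ x = 1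
  v7 : ∀ x, |χ₂ x| ≤ 1
  d1 : ∀ k x, |pd k χ₁ x| ≤ D₁
  d2 : ∀ k x, |pd k χ₂ x| ≤ D₁
  d0 : 0 ≤ D₁

theorem exFx (n : ℕ) : ∃ (ζ χ₁ χ₂ : V n → ℝ) (Oζ : Set (V n)) (D₁ : ℝ), Fx n ζ χ₁ χ₂ Oζ D₁ := by
  obtain ⟨ζ, Oζ, z1, z2, z3, z4, z5, z6, z7⟩ := acut (n := n) (a := 99 / 100) (b := 12)
    (c := 98 / 100) (d := 13) (by norm_num) (by norm_num)
  obtain ⟨χ₁, O₁, u1, u2, u3, u4, u5, u6, u7⟩ := acut (n := n) (a := 98 / 100) (b := 13)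
    (c := 97 / 100) (d := 14) (by norm_num) (by norm_num)
  obtain ⟨χ₂, O₂, v1, v2, v3, v4, v5, v6, v7⟩ := acut (n := n) (a := 97 / 100) (b := 14)
    (c := 96 / 100) (d := 15) (by norm_num) (by norm_num)
  obtain ⟨D₁, hD₁0, hD₁⟩ := cut_bd u1 u2
  obtain ⟨D₂, hD₂0, hD₂⟩ := cut_bd v1 v2
  exact ⟨ζ, χ₁, χ₂, Oζ, D₁ + D₂, z1, z2, z3, z4, z5, z6, z7, u1, u3, fun x hx => u6 x (u5 hx),
    fun x => by rw [abs_of_nonneg (u7 x).1]; exact (u7 x).2, v1, v2, v3, fun x hx => v6 x (v5 hx),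
    fun x => by rw [abs_of_nonneg (v7 x).1]; exact (v7 x).2,
    fun k x => (hD₁ k x).trans (by linarith), fun k x => (hD₂ k x).trans (by linarith),
    by linarith⟩

/-- The weighted estimate with the depth cut-off. -/
theorem keyI (hn : 3 ≤ n) {s₁ s₂ : MF n} {σ C₂ R kap Gs ρ D₁ M ε' : ℝ} {K : ℕ}
    {G : Set (V n)} (hNr : Nrm K ε' s₁ s₂ G) (hε' : ε' ≤ 1 / (8 * (n + 1)))
    {ζ χ₁ χ₂ g χ : V n → ℝ} {Oζ : Set (V n)} (F : Fx n ζ χ₁ χ₂ Oζ D₁)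
    (hgs : ContDiff ℝ ∞ g) (hge : ∀ x ∈ Ac n (4 / 5) 22, g x = gx n σ x)
    (hM : ∀ x ∈ Ac n (4 / 5) 22, ‖fderiv ℝ (gx n σ) x‖ ≤ M)
    (hρ1 : 1 ≤ ρ) (hρD : D₁ ≤ ρ) (hχ : χ = fun x => ζ x * cg n σ R kap Gs x)
    (hslv : Slv (Ao n (9 / 10) 20) s₁ g ρ (√(C₂ / ρ ^ 3))) :
    ContDiff ℝ ∞ χ ∧ HasCompactSupport χ ∧ (∀ x ∈ Oζ, χ x = cg n σ R kap Gs x) ∧
    (∀ x, χ x ^ 2 ≤ cg n σ R kap Gs x ^ 2) ∧
    ∫ x, χ x ^ 2 * nh (fun x => s₂ x - s₁ x) x * Real.exp (2 * ρ * g x) ≤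
      Ctf n * ((1 + M ^ 2) ^ 2 * (1 + ρ ^ 4 * √(C₂ / ρ ^ 3) ^ 2)) *
        ((∫ x, χ x ^ 2 * nh (tfp s₁ (fun x => s₂ x - s₁ x)) x * Real.exp (2 * ρ * g x)) +
          (ρ ^ 2)⁻¹ * ∫ x, gq χ x * nh (fun x => s₂ x - s₁ x) x * Real.exp (2 * ρ * g x)) := by
  have hn1 : 1 ≤ n := by omega
  obtain ⟨O, hO⟩ : ∃ O : Set (V n), O = Ao n (9 / 10) 20 := ⟨_, rfl⟩
  rw [← hO] at hslv
  have hOo : IsOpen O := by rw [hO]; exact isOpen_Ao _ _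
  have hO24 : O ⊆ Ao n (4 / 5) 24 := by
    rw [hO]
    exact fun x hx => ⟨lt_trans (by norm_num) hx.1, lt_trans hx.2 (by norm_num)⟩
  have hOc : O ⊆ Ac n (4 / 5) 22 := by
    rw [hO]
    exact fun x hx => ⟨le_trans (by norm_num) hx.1.le, hx.2.le.trans (by norm_num)⟩
  have hE24 : O ⊆ Eb 0 24 := fun x hx => (mem_Eb0 (by norm_num)).2 (hO24 hx).2
  have hhs : SmM (fun x => s₂ x - s₁ x) := fun i j => (hNr.sm₂ i j).sub (hNr.sm₁ i j)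
  have hgp : ∀ x ∈ O, ∀ k, |pd k g x| ≤ M := by
    intro x hx k
    rw [pd_loc hOo (fun y hy => hge y (hOc hy)) hx k]
    exact pd_le (hM x (hOc hx)) k
  have hnr : ∀ x, ∀ i j, |s₁ x i j - (1 : Matrix (Fin n) (Fin n) ℝ) i j| ≤ 1 / (8 * (n + 1)) := by
    intro x i j
    have h1 := (hNr.cl₁ i j 0 (Nat.zero_le _) x).trans hε'
    rwa [norm_iteratedFDeriv_zero, Real.norm_eq_abs] at h1
  have hχs : ContDiff ℝ ∞ χ := by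
    rw [hχ]
    refine smx (isOpen_Ao (98 / 100) 13) F.z1 F.z3 fun x hx => ?_
    exact (cg_cd (Ao_ne (by norm_num) hx)).contDiffWithinAt
  have hχt : tsupport χ ⊆ tsupport ζ := by rw [hχ]; exact tsupport_mul_subset_left
  have hχA : tsupport χ ⊆ Ao n (98 / 100) 13 := hχt.trans F.z3
  have hχ1 : ∀ x ∈ Oζ, χ x = cg n σ R kap Gs x := by
    intro x hx
    rw [hχ]
    show ζ x * cg n σ R kap Gs x = cg n σ R kap Gs x
    rw [F.z6 x hx, one_mul]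
  have hχle : ∀ x, χ x ^ 2 ≤ cg n σ R kap Gs x ^ 2 := by
    intro x
    rw [hχ]
    show (ζ x * cg n σ R kap Gs x) ^ 2 ≤ cg n σ R kap Gs x ^ 2
    rw [mul_pow]
    have h1 := F.z7 x
    have h2 : ζ x ^ 2 ≤ 1 := by nlinarith
    nlinarith [sq_nonneg (cg n σ R kap Gs x)]
  have hχc : HasCompactSupport χ := F.z2.of_isClosed_subset (isClosed_tsupport χ) hχt
  have hCu : Cu O ρ χ χ₁ χ₂ :=
    { s0 := hχs
      s1 := F.u1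
      s2 := F.v1
      c2 := F.v2
      o2 := fun x hx => by
        rw [hO]
        have := F.v3 hx
        exact ⟨lt_trans (by norm_num) this.1, lt_trans this.2 (by norm_num)⟩
      i1 := fun x hx => F.u6 x ⟨(hχA hx).1.le, (hχA hx).2.le⟩
      i2 := fun x hx => F.v6 x ⟨(F.u3 hx).1.le, (F.u3 hx).2.le⟩
      b1 := F.u7
      b2 := F.v7
      d1 := fun k x => (F.d1 k x).trans hρD
      d2 := fun k x => (F.d2 k x).trans hρD }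
  have hdh : ∀ x ∈ O, ∀ j, ∑ i, pd i (fun y => (s₂ y - s₁ y) i j) x = 0 := by
    intro x hx j
    have e1 : ∀ i, pd i (fun y => (s₂ y - s₁ y) i j) x =
        pd i (fun y => s₂ y i j) x - pd i (fun y => s₁ y i j) x := fun i =>
      psub (hNr.sm₂ i j) (hNr.sm₁ i j) i x
    simp only [e1, Finset.sum_sub_distrib, hNr.dv₁ x (hE24 hx) j, hNr.dv₂ x (hE24 hx) j, sub_self]
  exact ⟨hχs, hχc, hχ1, hχle, tfrw hn1 hOo hNr.sm₁ hhs hgs hρ1 hCu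
    (fun x hx => hNr.dv₁ x (hE24 hx)) hdh (fun x _ => hnr x) hgp hslv⟩

theorem logk {R kap e : ℝ} (hR : 100 ≤ R) (he : 0 ≤ e) (h1 : R ^ (e + 1) ≤ kap)
    (h2 : kap ≤ Real.exp (1 / 4 * R)) : R ≤ kap ∧ 4 ≤ Real.log kap ∧ Real.log kap ≤ R / 4 := by
  have hR1 : 1 ≤ R := by linarith
  have hkR' : R ≤ kap := by
    refine le_trans ?_ h1
    calc R = R ^ (1 : ℝ) := (Real.rpow_one R).symm
      _ ≤ _ := Real.rpow_le_rpow_of_exponent_le hR1 (by linarith)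
  have hkp : 0 < kap := by linarith
  refine ⟨hkR', ?_, ?_⟩
  · rw [Real.le_log_iff_exp_le hkp]
    have h1 : Real.exp 4 = Real.exp 1 ^ 4 := by rw [← Real.exp_nat_mul]; norm_num
    rw [h1]
    have h2 := Real.exp_one_lt_d9
    have h3 : Real.exp 1 ^ 4 ≤ 2.7182818286 ^ 4 :=
      pow_le_pow_left₀ (Real.exp_pos 1).le h2.le 4
    norm_num at h3 ⊢
    linarith
  · have := (Real.log_le_log_iff hkp (Real.exp_pos _)).2 h2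
    rw [Real.log_exp] at this
    linarith

theorem far_ar {R g Gs L : ℝ} (hR : 100 ≤ R) (h1 : g ≤ -(1 / 2)) (h2 : -(1 / 4) ≤ Gs)
    (h3 : L ≤ R / 4) : R * (g - Gs) ≤ -(L / 2) := by
  have : R * (g - Gs) ≤ R * (-(1 / 4)) := mul_le_mul_of_nonneg_left (by linarith) (by linarith)
  linarith

theorem near_ar {R t L u : ℝ} (hR : 0 < R) (h1 : |t| ≤ u) (h2 : R * u ≤ 1) (h3 : 4 ≤ L) :
    -(L / 4) ≤ R * t := by
  have : R * -u ≤ R * t := mul_le_mul_of_nonneg_left (abs_le.1 h1).1 hR.le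
  linarith

/-- the weighted jets -/
theorem jets01 {s₁ s₂ : MF n} {σ N q C s R kap Gs δ : ℝ} {ps : V n}
    (hSel : SelD s₁ s₂ σ N q 1 C s R kap Gs δ ps) (hC : 0 ≤ C) (hR : 0 < R) (hq : 0 ≤ q) :
    (∀ i j, ∀ x ∈ Ac n (4 / 5) 22, |s₂ x i j - s₁ x i j| *
      Real.exp (N * R * (gx n σ x - Gs)) ≤ C * R ^ C * kap ^ s * δ *
        Real.exp (-(q * R * |gx n σ x - Gs|))) ∧
    ∀ i j, ∀ x ∈ Ac n (4 / 5) 22, ‖fderiv ℝ (fun y => s₂ y i j - s₁ y i j) x‖ *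
      Real.exp (N * R * (gx n σ x - Gs)) ≤ C * R ^ C * kap ^ s * δ := by
  have hδ0 := hSel.δ0
  have hk1 := hSel.k1
  constructor
  · intro i j x hx
    have h1 := hSel.jets i j 0 (by norm_num) x hx
    rw [norm_iteratedFDeriv_zero, Real.norm_eq_abs] at h1
    exact h1
  · intro i j x hx
    have h1 := hSel.jets i j 1 le_rfl x hx
    rw [norm_iteratedFDeriv_one] at h1
    refine h1.trans (mul_le_of_le_one_right ?_ ?_)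
    · have : 0 < kap := by linarith
      positivity
    · rw [Real.exp_le_one_iff, neg_nonpos]
      positivity

/-- **P3** from P2. -/
theorem rowP3 (hP2 : RowP2) : RowP3 := by
  intro n hn σ hσ0 hσ1
  refine ⟨2 * (n + 3), fun q hq => ⟨1, fun N hN => ?_⟩⟩
  obtain ⟨K, ε, C₂, ρ₀, hε, hC₂, hsl⟩ := slv hP2 hn hσ0 hσ1
  have hn1 : 1 ≤ n := by omega
  refine ⟨K, min ε (1 / (8 * (n + 1))), by positivity, fun s hs0 hs1 C hC => ?_⟩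
  obtain ⟨M, hM1, hM⟩ := gx_bd n σ
  obtain ⟨D, hD0, hD, hDz⟩ := st_d
  obtain ⟨ζ, χ₁, χ₂, Oζ, D₁, F⟩ := exFx n
  obtain ⟨ξ, Oξ, w1, w2, w3, w4, w5, w6, w7⟩ := acut (n := n) (a := 4 / 5) (b := 22)
    (c := 1 / 2) (d := 30) (by norm_num) (by norm_num)
  obtain ⟨Vo, hVo⟩ : ∃ v : ℝ, v = volume.real (Ac n 1 12) := ⟨_, rfl⟩
  have hVo0 : 0 ≤ Vo := by rw [hVo]; positivity
  obtain ⟨K₀, hK₀⟩ : ∃ k : ℝ, k = 100 * (n + 1) * (1 + N) * M * (1 + C) := ⟨_, rfl⟩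
  have hK₀p : 0 < K₀ := by rw [hK₀]; positivity
  obtain ⟨A₁, hA₁⟩ : ∃ a : ℝ, a = 4 * Real.exp 2 * (K₀ / 2) ^ n *
    (Ctf n * ((1 + M ^ 2) ^ 2 * ((1 + C₂) * N))) := ⟨_, rfl⟩
  obtain ⟨A₂, hA₂⟩ : ∃ a : ℝ, a = Vo * (n * (D * M) ^ 2 * (n * C) ^ 2) := ⟨_, rfl⟩
  have hCtf := Ctf_pos n
  have hA₁0 : 0 ≤ A₁ := by rw [hA₁]; positivity
  have hA₂0 : 0 ≤ A₂ := by rw [hA₂]; positivity
  have hD₁0 := F.d0
  refine ⟨max (2 * A₁) ((n + 1 : ℝ) + C * n), (n + 1 : ℝ) + C * (n + 2) + 1,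
    100 + |ρ₀| + D₁ + 2 * (A₁ * A₂), 1 / 4, le_trans (by positivity) (le_max_left _ _),
    by norm_num, ?_⟩
  intro s₁ s₂ G hNr R kap Gs δ ps hR0 hR1 hkR hkη hGs hSel
  have hA12 : 0 ≤ 2 * (A₁ * A₂) := by positivity
  have hab := abs_nonneg ρ₀
  have hRp : 0 < R := by linarith
  have hR100 : 100 ≤ R := by linarith
  have hkap1 := hSel.k1
  have he0 : 0 ≤ (n + 1 : ℝ) + C * (n + 2) := by positivity
  obtain ⟨hkR', hL4, hLη⟩ := logk hR100 he0 hkR hkη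
  have hkp : 0 < kap := by linarith
  obtain ⟨L, hL⟩ : ∃ l : ℝ, l = Real.log kap := ⟨_, rfl⟩
  rw [← hL] at hL4 hLη
  obtain ⟨ρ, hρ⟩ : ∃ r : ℝ, r = N * R := ⟨_, rfl⟩
  have hρR : R ≤ ρ := by rw [hρ]; nlinarith
  have hρ1 : 1 ≤ ρ := by linarith
  obtain ⟨g, hg⟩ : ∃ g : V n → ℝ, g = fun x => ξ x * gx n σ x := ⟨_, rfl⟩
  have hgs : ContDiff ℝ ∞ g := by
    rw [hg]
    exact smx (isOpen_Ao (1 / 2) 30) w1 w3 (gx_on σ (by norm_num))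
  have hge : ∀ x ∈ Ac n (4 / 5) 22, g x = gx n σ x := by
    intro x hx
    rw [hg]
    show ξ x * gx n σ x = gx n σ x
    rw [w6 x (w5 hx), one_mul]
  have hslv : Slv (Ao n (9 / 10) 20) s₁ g ρ (√(C₂ / ρ ^ 3)) :=
    hsl s₁ hNr.sm₁ hNr.sy₁ (fun i j l hl x => (hNr.cl₁ i j l hl x).trans (min_le_left _ _))
      hNr.dv₁ _ (isOpen_Ao _ _)
      (fun x hx => ⟨lt_trans (by norm_num) hx.1, lt_trans hx.2 (by norm_num)⟩) g hgs.continuous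
      (fun x hx => hge x ⟨le_trans (by norm_num) hx.1.le, hx.2.le.trans (by norm_num)⟩) ρ (by
        have := le_abs_self ρ₀
        linarith) hρ1
  obtain ⟨χ, hχ⟩ : ∃ χ : V n → ℝ, χ = fun x => ζ x * cg n σ R kap Gs x := ⟨_, rfl⟩
  obtain ⟨hχs, hχc, hχ1, hχle, key⟩ := keyI hn hNr (min_le_right _ _) F hgs hge hM hρ1
    (by linarith) hχ hslv
  have hfar : ∀ x, 12 ≤ √(HY.sq x) → cg n σ R kap Gs x = 0 := by
    intro x hx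
    refine cg_zero (by rw [← hL]; linarith) ?_
    rw [← hL]
    exact far_ar hR100 (gx_far hn1 hσ0 hσ1 hx) hGs hLη
  have hin : ∀ x, √(HY.sq x) < 1 → s₂ x = s₁ x := fun x hx =>
    hNr.eq x ⟨hNr.b1 ((mem_Eb0 one_pos).2 hx), (mem_Eb0 (by norm_num)).2 (by linarith)⟩
  obtain ⟨g₀, hg₀⟩ : ∃ v : ℝ, v = Real.exp (-(2 * ρ * Gs)) := ⟨_, rfl⟩
  have hg₀p : 0 < g₀ := by rw [hg₀]; exact Real.exp_pos _
  have hge2 : ∀ x ∈ Ac n (4 / 5) 22, g₀ * Real.exp (2 * ρ * g x) =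
      Real.exp (2 * (N * R * (gx n σ x - Gs))) := by
    intro x hx
    rw [hg₀, ← Real.exp_add, hge x hx, hρ]
    congr 1; ring
  obtain ⟨B, hB⟩ : ∃ b : ℝ, b = C * R ^ C * kap ^ s := ⟨_, rfl⟩
  have hB0 : 0 ≤ B := by rw [hB]; positivity
  have hδ0 := hSel.δ0
  have hq0 : 0 ≤ q := le_trans (by positivity) hq
  obtain ⟨hj0, hj1⟩ := jets01 hSel hC hRp hq0
  rw [← hB] at hj0 hj1
  have hQ1 : 1 ≤ R ^ C := Real.one_le_rpow hR1 hC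
  have hP1 : 1 ≤ kap ^ s := Real.one_le_rpow hkap1 hs0.le
  obtain ⟨r, hrp, hrT, hr1, hr2, hr3, hr4⟩ := radii (n := n) hN hR1 hM1 hC hQ1 hP1 hB
  rw [← hK₀] at hrT
  have hnear : ∀ x ∈ Metric.ball ps r, x ∈ Ac n (4 / 5) 22 ∧ |gx n σ x - Gs| ≤ M * r ∧
      δ ^ 2 / 4 ≤ nh (fun x => s₂ x - s₁ x) x ∧ χ x = 1 := by
    intro x hx
    obtain ⟨k1, k2, k3⟩ := near_ps hNr.sm₁ hNr.sm₂ hSel.pm hSel.gs hδ0 hSel.δe hN hR1 hM1 hM hB0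
      hj1 hrp hr1 hr2 hr3 hx
    have k4 : x ∈ Ac n (99 / 100) 12 := ⟨k1.1, k1.2.trans (by norm_num)⟩
    refine ⟨⟨le_trans (by norm_num) k4.1, k4.2.trans (by norm_num)⟩, k2, k3, ?_⟩
    rw [hχ1 x (F.z5 k4)]
    refine cg_one (by rw [← hL]; linarith) ?_
    rw [← hL]
    exact near_ar hRp k2 hr4 hL4
  have hhs : SmM (fun x => s₂ x - s₁ x) := fun i j => (hNr.sm₂ i j).sub (hNr.sm₁ i j)
  have low := lowI hhs hχs hχc hgs hg₀p hrp hN hR1 hr2 hnear hge2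
  have hnr : ∀ x, ∀ i j, |s₁ x i j - (1 : Matrix (Fin n) (Fin n) ℝ) i j| ≤ 1 / (8 * (n + 1)) := by
    intro x i j
    have h1 := (hNr.cl₁ i j 0 (Nat.zero_le _) x).trans (min_le_right _ _)
    rwa [norm_iteratedFDeriv_zero, Real.norm_eq_abs] at h1
  have main := mainI hn1 hNr.sm₁ hNr.sm₂ hnr hχs hgs hχle hfar hin hge2
  have err := errI hNr.sm₁ hNr.sm₂ hχs hgs F.z4 F.z5 hχ1 hχle hfar hin hge2 hL hL4 hkp hRp hq0
    hB0 hδ0 hD0 hM1 hM hD hDz hj0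
  rw [← hVo] at err
  have hIt : 0 ≤ It s₁ s₂ σ N R kap Gs := by
    unfold It
    refine integral_nonneg fun x => ?_
    have := nh_nn (tfp s₁ fun x => s₂ x - s₁ x) x
    positivity
  have hY0 : 0 ≤ ∫ x, χ x ^ 2 * nh (tfp s₁ (fun x => s₂ x - s₁ x)) x *
      Real.exp (2 * ρ * g x) := integral_nonneg fun x => by
    have := nh_nn (tfp s₁ fun x => s₂ x - s₁ x) x
    positivity
  have hZ0 : 0 ≤ ∫ x, gq χ x * nh (fun x => s₂ x - s₁ x) x * Real.exp (2 * ρ * g x) :=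
    integral_nonneg fun x => by
      have h1 := nh_nn (fun x => s₂ x - s₁ x) x
      have h2 : 0 ≤ gq χ x := Finset.sum_nonneg fun _ _ => sq_nonneg _
      show 0 ≤ gq χ x * nh (fun x => s₂ x - s₁ x) x * Real.exp (2 * ρ * g x)
      positivity
  have fin := asm hN hR1 hM1 hC₂ hD0 hkp hg₀p hVo0 hK₀p hρ hB hrT hY0 hZ0 low main err key
  rw [← hA₁, ← hA₂] at fin
  exact fin_ar hA₁0 hA₂0 hR1 hkap1 hC hs0 hs1 hIt hq (by linarith) hkR fin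

end Vale.Agent.P088.R2.H238.S3.P3
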