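import Vale.Agent.P088.R2.H404.Spec4

/-!
# P088, stage 3, row P3: the level function, the cut-offs, solvability
-/

open MeasureTheory Set
open scoped ContDiff Matrix Topology

noncomputable section

namespace Vale.Agent.P088.R2.H238.S3.P3

open Vale.Agent.P088.LR Vale.Agent.P088.HY Vale.Agent.P088.HY.T3 Vale.Agent.P088.HY.T4
  Vale.Agent.P088.R2.H238.S3

variable {n : ℕ}

theorem sq_cd : ContDiff ℝ ∞ (HY.sq : V n → ℝ) := by
  unfold HY.sq
  exact ContDiff.sum fun i _ => (contDiff_apply ℝ ℝ i).pow 2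

theorem iv_cd {x : V n} (hx : HY.sq x ≠ 0) : ContDiffAt ℝ ∞ (iv : V n → V n) x := by
  refine contDiffAt_pi.2 fun i => ?_
  exact (contDiff_apply ℝ ℝ i).contDiffAt.div sq_cd.contDiffAt hx

theorem gy_cd (σ : ℝ) : ContDiff ℝ ∞ (gy n σ) := by
  unfold gy
  refine ((ContDiff.sum fun i _ => (contDiff_apply ℝ ℝ i).mul contDiff_const).sub
    contDiff_const).add (contDiff_const.mul ?_)
  exact sq_cd.comp (contDiff_id.sub contDiff_const)

theorem gx_cd (σ : ℝ) {x : V n} (hx : HY.sq x ≠ 0) : ContDiffAt ℝ ∞ (gx n σ) x :=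
  (gy_cd σ).contDiffAt.comp x (iv_cd hx)

theorem Ao_ne {a b : ℝ} (ha : 0 ≤ a) {x : V n} (hx : x ∈ Ao n a b) : HY.sq x ≠ 0 := by
  intro h
  have := hx.1
  rw [h, Real.sqrt_zero] at this
  linarith

theorem gx_on (σ : ℝ) {a b : ℝ} (ha : 0 ≤ a) : ContDiffOn ℝ ∞ (gx n σ) (Ao n a b) := fun _ hx =>
  (gx_cd σ (Ao_ne ha hx)).contDiffWithinAt

theorem sq_cp (x : V n) (i : Fin n) : x i ^ 2 ≤ HY.sq x := by
  unfold HY.sq
  exact Finset.single_le_sum (f := fun i => x i ^ 2) (fun _ _ => sq_nonneg _) (Finset.mem_univ i)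

theorem sq_nn (x : V n) : 0 ≤ HY.sq x := Finset.sum_nonneg fun _ _ => sq_nonneg _

theorem gy_sum (σ : ℝ) : gy n σ = fun y => (∑ j, (y j * e0 n j + σ / 2 * (y j - e0 n j) ^ 2)) - 1 := by
  funext y
  unfold gy HY.sq
  rw [Finset.sum_add_distrib, Finset.mul_sum]
  have : ∀ j, (y - e0 n) j = y j - e0 n j := fun j => rfl
  simp only [this]
  ring

/-- The gradient of `gy`. -/
theorem gy_pd (σ : ℝ) (i : Fin n) (y : V n) : pd i (gy n σ) y = e0 n i + σ * (y i - e0 n i) := by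
  have h1 : ∀ j, HasFDerivAt (fun y : V n => y j * e0 n j + σ / 2 * (y j - e0 n j) ^ 2)
      ((e0 n j + σ * (y j - e0 n j)) • (ContinuousLinearMap.proj j : V n →L[ℝ] ℝ)) y := by
    intro j
    have h2 : HasDerivAt (fun t : ℝ => t * e0 n j + σ / 2 * (t - e0 n j) ^ 2)
        (e0 n j + σ * (y j - e0 n j)) (y j) := by
      have h3 := ((hasDerivAt_id (y j)).mul_const (e0 n j)).add
        ((((hasDerivAt_id (y j)).sub_const (e0 n j)).pow 2).const_mul (σ / 2))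
      refine h3.congr_deriv ?_
      simp only [id_eq]
      ring
    have h4 : HasFDerivAt (fun y : V n => y j) (ContinuousLinearMap.proj j : V n →L[ℝ] ℝ) y :=
      (ContinuousLinearMap.proj j : V n →L[ℝ] ℝ).hasFDerivAt
    exact h2.comp_hasFDerivAt y h4
  have h5 : HasFDerivAt (gy n σ) (∑ j, (e0 n j + σ * (y j - e0 n j)) •
      (ContinuousLinearMap.proj j : V n →L[ℝ] ℝ)) y := by
    rw [gy_sum]
    exact (HasFDerivAt.fun_sum fun j _ => h1 j).sub_const 1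
  unfold pd
  rw [h5.fderiv]
  simp only [ContinuousLinearMap.sum_apply, smul_apply, ContinuousLinearMap.proj_apply, smul_eq_mul]
  rw [Finset.sum_eq_single i]
  · rw [Pi.single_eq_same, mul_one]
  · intro j _ hj
    rw [Pi.single_eq_of_ne hj, mul_zero]
  · intro h; exact absurd (Finset.mem_univ _) h

theorem gy_pd2 (σ : ℝ) (i j : Fin n) (y : V n) :
    pd i (pd j (gy n σ)) y = if i = j then σ else 0 := by
  have h1 : pd j (gy n σ) = fun y => e0 n j + σ * (y j - e0 n j) := funext fun y => gy_pd σ j y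
  rw [h1]
  have h2 : HasFDerivAt (fun y : V n => e0 n j + σ * (y j - e0 n j))
      (σ • (ContinuousLinearMap.proj j : V n →L[ℝ] ℝ)) y :=
    (((ContinuousLinearMap.proj j : V n →L[ℝ] ℝ).hasFDerivAt.sub_const _).const_mul σ).const_add _
  unfold pd
  rw [h2.fderiv, smul_apply, ContinuousLinearMap.proj_apply, smul_eq_mul]
  by_cases h : i = j
  · rw [if_pos h, h, Pi.single_eq_same, mul_one]
  · rw [if_neg h, Pi.single_eq_of_ne (Ne.symm h), mul_zero]

theorem gy_lvl (hn : 3 ≤ n) {σ : ℝ} (h0 : 0 < σ) (h1 : σ ≤ 1 / 10) :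
    Lvl n 2 σ (1 / 4) (gy n σ) := by
  have hb : ∀ y ∈ Eb (0 : V n) (5 / 4), ∀ i, |y i| ≤ 5 / 4 := by
    intro y hy i
    have h2 : HY.sq (y - 0) < (5 / 4) ^ 2 := hy
    rw [sub_zero] at h2
    exact abs_le_of_sq_le_sq ((sq_cp y i).trans h2.le) (by norm_num)
  have he : ∀ i : Fin n, 0 ≤ e0 n i ∧ e0 n i ≤ 1 := by
    intro i; unfold e0; split_ifs <;> norm_num
  refine ⟨gy_cd σ, fun y hy i => ?_, fun y hy i j => ?_, fun y hy i j k => ?_, fun y hy => ?_,
    fun y hy ξ => ?_⟩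
  · rw [gy_pd]
    have h2 := abs_le.1 (hb y hy i)
    have h3 := he i
    rw [abs_le]
    constructor <;> nlinarith
  · rw [gy_pd2]
    split_ifs
    · rw [abs_of_pos h0]; linarith
    · simp
  · have h2 : pd j (pd k (gy n σ)) = fun _ => if j = k then σ else 0 :=
      funext fun y => gy_pd2 σ j k y
    rw [h2]
    unfold pd
    simp
  · obtain ⟨i, hi⟩ : ∃ i : Fin n, i = ⟨0, by omega⟩ := ⟨_, rfl⟩
    have h2 : (1 / 4 : ℝ) ≤ pd i (gy n σ) y ^ 2 := by
      rw [gy_pd]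
      have h3 : e0 n i = 1 := by rw [hi]; unfold e0; simp
      rw [h3]
      have h4 := abs_le.1 (hb y hy i)
      have h5 : (1 / 2 : ℝ) ≤ 1 + σ * (y i - 1) := by nlinarith
      nlinarith
    exact h2.trans (Finset.single_le_sum (f := fun i => pd i (gy n σ) y ^ 2)
      (fun _ _ => sq_nonneg _) (Finset.mem_univ i))
  · simp only [gy_pd2, mul_ite, mul_zero, Finset.sum_ite_eq, Finset.mem_univ, if_true]
    rw [Finset.mul_sum]
    exact le_of_eq (Finset.sum_congr rfl fun i _ => by ring)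

/-- Solvability from P2. -/
theorem slv (h2 : RowP2) (hn : 3 ≤ n) {σ : ℝ} (h0 : 0 < σ) (h1 : σ ≤ 1 / 10) :
    ∃ (K : ℕ) (ε C ρ₀ : ℝ), 0 < ε ∧ 1 ≤ C ∧ ∀ s : MF n, SmM s → (∀ x, (s x).IsSymm) →
    (∀ i j, Cl K ε (fun x => s x i j - (1 : Matrix (Fin n) (Fin n) ℝ) i j)) →
    (∀ x ∈ Eb (0 : V n) 24, ∀ j, ∑ i, pd i (fun y => s y i j) x = 0) →
    ∀ O : Set (V n), IsOpen O → O ⊆ Ao n (4 / 5) 24 → ∀ G : V n → ℝ, Continuous G →
    (∀ x ∈ O, G x = gx n σ x) → ∀ ρ : ℝ, ρ₀ ≤ ρ → 1 ≤ ρ → Slv O s G ρ (√(C / ρ ^ 3)) := by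
  obtain ⟨K, ε, C, ρ₀, hε, hC, h⟩ := h2 n hn 2 σ (1 / 4) (by norm_num) h0 (by norm_num)
  refine ⟨K, ε, C, ρ₀, hε, hC, fun s hs hsy hcl hdv O hO hOs G hGc hG ρ hρ hρ1 F hF hFc hFO => ?_⟩
  have hs1 := h s hs hsy hcl hdv (gy n σ) (gy_lvl hn h0 h1) O hO hOs ρ hρ hρ1
  have e0 : ∀ x ∈ O, gy n σ (iv x) = G x := fun x hx => (hG x hx).symm
  have hcon : Integrable fun x => F x ^ 2 * Real.exp (-(2 * ρ * G x)) := by
    refine Continuous.integrable_of_hasCompactSupport ?_ ?_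
    · exact (hF.continuous.pow 2).mul (continuous_const.mul hGc).neg.rexp
    · have h3 : HasCompactSupport fun x => F x ^ 2 :=
        hFc.comp_left (g := fun t : ℝ => t ^ 2) (by norm_num)
      exact h3.mul_right
  obtain ⟨w, w1, w2, w3, w4⟩ := hs1 F hF.contDiffOn (by
    refine (hcon.integrableOn (s := O)).congr_fun (fun x hx => ?_) hO.measurableSet
    show F x ^ 2 * Real.exp (-(2 * ρ * G x)) = F x ^ 2 * Real.exp (-(2 * ρ * gy n σ (iv x)))
    rw [e0 x hx])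
  refine ⟨w, w1, w2, ?_, ?_⟩
  · refine w3.congr_fun (fun x hx => ?_) hO.measurableSet
    show w x ^ 2 * Real.exp (-(2 * ρ * gy n σ (iv x))) = w x ^ 2 * Real.exp (-(2 * ρ * G x))
    rw [e0 x hx]
  · have e1 : ∫ x in O, w x ^ 2 * Real.exp (-(2 * ρ * gy n σ (iv x))) =
        ∫ x in O, w x ^ 2 * Real.exp (-(2 * ρ * G x)) :=
      setIntegral_congr_fun hO.measurableSet fun x hx => by
        show w x ^ 2 * Real.exp (-(2 * ρ * gy n σ (iv x))) = w x ^ 2 * Real.exp (-(2 * ρ * G x))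
        rw [e0 x hx]
    have e2 : ∫ x in O, F x ^ 2 * Real.exp (-(2 * ρ * gy n σ (iv x))) =
        ∫ x, F x ^ 2 * Real.exp (-(2 * ρ * G x)) := by
      refine (setIntegral_congr_fun (g := fun x => F x ^ 2 * Real.exp (-(2 * ρ * G x)))
        hO.measurableSet fun x hx => ?_).trans
        (setIntegral_eq_integral_of_forall_compl_eq_zero (s := O) (fun x hx => by
        rw [image_eq_zero_of_notMem_tsupport fun h' => hx (hFO h')]; ring))
      show F x ^ 2 * Real.exp (-(2 * ρ * gy n σ (iv x))) = F x ^ 2 * Real.exp (-(2 * ρ * G x))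
      rw [e0 x hx]
    have e3 : √(C / ρ ^ 3) ^ 2 = C / ρ ^ 3 := Real.sq_sqrt (by positivity)
    rw [e3, ← e1, ← e2]
    exact w4

/-- The gradient of the level function is bounded. -/
theorem gx_bd (n : ℕ) (σ : ℝ) : ∃ M : ℝ, 1 ≤ M ∧ ∀ x ∈ Ac n (4 / 5) 22, ‖fderiv ℝ (gx n σ) x‖ ≤ M := by
  have h1 : ContinuousOn (fderiv ℝ (gx n σ)) (Ac n (4 / 5) 22) := by
    have h2 := (gx_on (n := n) σ (a := 1 / 2) (b := 30) (by norm_num)).continuousOn_fderiv_of_isOpen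
      (isOpen_Ao _ _) (by simp)
    exact h2.mono fun x hx => ⟨lt_of_lt_of_le (by norm_num) hx.1, lt_of_le_of_lt hx.2 (by norm_num)⟩
  obtain ⟨M, hM⟩ := (isCompact_Ac (4 / 5) 22).exists_bound_of_continuousOn h1
  exact ⟨max M 1, le_max_right _ _, fun x hx => (hM x hx).trans (le_max_left _ _)⟩

theorem norm_single (i : Fin n) : ‖(Pi.single i (1 : ℝ) : V n)‖ ≤ 1 := by
  refine (pi_norm_le_iff_of_nonneg zero_le_one).2 fun j => ?_
  by_cases h : j = i
  · subst h; simp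
  · rw [Pi.single_eq_of_ne h]; simp

theorem pd_le {f : V n → ℝ} {x : V n} {M : ℝ} (h : ‖fderiv ℝ f x‖ ≤ M) (i : Fin n) :
    |pd i f x| ≤ M := by
  have h0 : 0 ≤ M := (norm_nonneg _).trans h
  unfold pd
  calc ‖fderiv ℝ f x (Pi.single i 1)‖ ≤ ‖fderiv ℝ f x‖ * ‖(Pi.single i (1 : ℝ) : V n)‖ :=
        (fderiv ℝ f x).le_opNorm _
    _ ≤ M * 1 := mul_le_mul h (norm_single i) (norm_nonneg _) h0
    _ = M := mul_one M

/-- A smooth annular cut-off. -/
theorem acut {a b c d : ℝ} (h1 : c < a) (h2 : b < d) : ∃ (χ : V n → ℝ) (O : Set (V n)),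
    ContDiff ℝ ∞ χ ∧ HasCompactSupport χ ∧ tsupport χ ⊆ Ao n c d ∧ IsOpen O ∧ Ac n a b ⊆ O ∧
      (∀ x ∈ O, χ x = 1) ∧ ∀ x, 0 ≤ χ x ∧ χ x ≤ 1 := by
  obtain ⟨χ, O, g1, g2, g3, g4, g5, g6⟩ := ex_cut (isClosed_Ac (n := n) a b) (isOpen_Ao c d)
    (fun x hx => ⟨lt_of_lt_of_le h1 hx.1, lt_of_le_of_lt hx.2 h2⟩)
  refine ⟨χ, O, g1, ?_, g2, g3, g4, g5, g6⟩
  exact (isCompact_Ac c d).of_isClosed_subset (isClosed_tsupport χ)
    (g2.trans fun x hx => ⟨hx.1.le, hx.2.le⟩)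

theorem cut_bd {χ : V n → ℝ} (h1 : ContDiff ℝ ∞ χ) (h2 : HasCompactSupport χ) :
    ∃ D : ℝ, 0 ≤ D ∧ ∀ k x, |pd k χ x| ≤ D := by
  have h3 : HasCompactSupport (fderiv ℝ χ) := h2.fderiv ℝ
  obtain ⟨D, hD⟩ := h3.exists_bound_of_continuous (h1.continuous_fderiv (by simp))
  exact ⟨D, (norm_nonneg _).trans (hD 0), fun k x => pd_le (hD x) k⟩

/-- The derivative of the transition. -/
theorem st_d : ∃ D : ℝ, 0 < D ∧ (∀ t, |deriv Real.smoothTransition t| ≤ D) ∧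
    ∀ t, (t < 0 ∨ 1 < t) → deriv Real.smoothTransition t = 0 := by
  have hz : ∀ t, (t < 0 ∨ 1 < t) → deriv Real.smoothTransition t = 0 := by
    intro t ht
    rcases ht with ht | ht
    · have h : Real.smoothTransition =ᶠ[𝓝 t] fun _ => 0 := by
        filter_upwards [Iio_mem_nhds ht] with u hu
        exact Real.smoothTransition.zero_of_nonpos (le_of_lt hu)
      rw [h.deriv_eq]; simp
    · have h : Real.smoothTransition =ᶠ[𝓝 t] fun _ => 1 := by
        filter_upwards [Ioi_mem_nhds ht] with u hu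
        exact Real.smoothTransition.one_of_one_le (le_of_lt hu)
      rw [h.deriv_eq]; simp
  have hc : Continuous (deriv Real.smoothTransition) :=
    (Real.smoothTransition.contDiff (n := 1)).continuous_deriv le_rfl
  obtain ⟨D, hD⟩ := (isCompact_Icc (a := (0 : ℝ)) (b := 1)).exists_bound_of_continuousOn
    hc.continuousOn
  refine ⟨max D 1, by positivity, fun t => ?_, hz⟩
  by_cases ht : t ∈ Icc (0 : ℝ) 1
  · exact (hD t ht).trans (le_max_left _ _)
  · have : t < 0 ∨ 1 < t := by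
      by_contra h
      push Not at h
      exact ht ⟨h.1, h.2⟩
    rw [hz t this, abs_zero]
    positivity

end Vale.Agent.P088.R2.H238.S3.P3
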