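import Vale.Agent.P088.R2.H238.S3.P3a

/-!
# P088, stage 3, row P3: the pointwise bounds
-/

open MeasureTheory Set
open scoped ContDiff Matrix Topology

noncomputable section

namespace Vale.Agent.P088.R2.H238.S3.P3

open Vale.Agent.P088.LR Vale.Agent.P088.HY Vale.Agent.P088.HY.T3 Vale.Agent.P088.HY.T4
  Vale.Agent.P088.R2.H238.S3

variable {n : ℕ}

theorem e0_sum (hn : 1 ≤ n) (u : V n) : ∑ i, u i * e0 n i = u ⟨0, hn⟩ := by
  unfold e0
  rw [Finset.sum_eq_single (⟨0, hn⟩ : Fin n)]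
  · simp
  · intro i _ hi
    have : i.val ≠ 0 := fun h => hi (Fin.ext h)
    simp [this]
  · intro h; exact absurd (Finset.mem_univ _) h

theorem sq_e0 (hn : 1 ≤ n) : HY.sq (e0 n) = 1 := by
  have h : HY.sq (e0 n) = ∑ i, e0 n i * e0 n i := by
    unfold HY.sq; exact Finset.sum_congr rfl fun i _ => by ring
  rw [h, e0_sum hn]
  unfold e0; simp

theorem sq_iv {x : V n} (hx : HY.sq x ≠ 0) : HY.sq (iv x) = 1 / HY.sq x := by
  have : HY.sq (iv x) = HY.sq x / HY.sq x ^ 2 := by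
    have h : HY.sq (iv x) = ∑ i, x i ^ 2 / HY.sq x ^ 2 :=
      Finset.sum_congr rfl fun i _ => by unfold iv; rw [div_pow]
    rw [h, ← Finset.sum_div]; rfl
  rw [this]
  field_simp

/-- The level function is negative far away. -/
theorem gx_far (hn : 1 ≤ n) {σ : ℝ} (h0 : 0 < σ) (h1 : σ ≤ 1 / 10) {x : V n}
    (hx : 12 ≤ √(HY.sq x)) : gx n σ x ≤ -(1 / 2) := by
  have h2 : 144 ≤ HY.sq x := by
    have h3 := Real.sq_sqrt (sq_nn x)
    nlinarith [Real.sqrt_nonneg (HY.sq x)]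
  have h3 : HY.sq (iv x) ≤ 1 / 144 := by
    rw [sq_iv (by linarith)]
    exact one_div_le_one_div_of_le (by norm_num) h2
  obtain ⟨u, hu⟩ : ∃ u : V n, u = iv x := ⟨_, rfl⟩
  rw [← hu] at h3
  have h4 : u ⟨0, hn⟩ ≤ 1 / 12 := by
    have h5 := (sq_cp u ⟨0, hn⟩).trans h3
    nlinarith
  have h5 : HY.sq (u - e0 n) ≤ 2 * (HY.sq u + HY.sq (e0 n)) := by
    unfold HY.sq
    rw [← Finset.sum_add_distrib, Finset.mul_sum]
    refine Finset.sum_le_sum fun i _ => ?_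
    rw [Pi.sub_apply]
    nlinarith [sq_nonneg (u i + e0 n i)]
  rw [sq_e0 hn] at h5
  unfold gx gy
  rw [← hu, e0_sum hn]
  have h6 := sq_nn (u - e0 n)
  nlinarith

/-- Smoothness and derivative of the depth cut-off. -/
theorem cg_cd {σ R kap Gs : ℝ} {x : V n} (hx : HY.sq x ≠ 0) :
    ContDiffAt ℝ ∞ (cg n σ R kap Gs) x := by
  unfold cg
  refine (Real.smoothTransition.contDiff (n := (⊤ : ℕ∞))).contDiffAt.comp x ?_
  exact ((contDiffAt_const.mul ((gx_cd σ hx).sub contDiffAt_const)).add contDiffAt_const).div_const _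

theorem cg_pd {σ R kap Gs : ℝ} {x : V n} (hx : HY.sq x ≠ 0) (i : Fin n) :
    pd i (cg n σ R kap Gs) x = deriv Real.smoothTransition
      ((R * (gx n σ x - Gs) + Real.log kap / 2) / (Real.log kap / 4)) *
        ((R * pd i (gx n σ) x) / (Real.log kap / 4)) := by
  have h1 : HasFDerivAt (gx n σ) (fderiv ℝ (gx n σ) x) x :=
    ((gx_cd σ hx).differentiableAt (by simp)).hasFDerivAt
  have h2 : HasFDerivAt (fun x => (R * (gx n σ x - Gs) + Real.log kap / 2) / (Real.log kap / 4))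
      ((Real.log kap / 4)⁻¹ • (R • fderiv ℝ (gx n σ) x)) x := by
    have h3 := (((h1.sub_const Gs).const_mul R).add_const (Real.log kap / 2)).const_mul
      (Real.log kap / 4)⁻¹
    refine h3.congr_of_eventuallyEq (Filter.Eventually.of_forall fun y => ?_)
    simp only [div_eq_mul_inv]
    ring
  have h4 : HasDerivAt Real.smoothTransition (deriv Real.smoothTransition
      ((R * (gx n σ x - Gs) + Real.log kap / 2) / (Real.log kap / 4)))
      ((R * (gx n σ x - Gs) + Real.log kap / 2) / (Real.log kap / 4)) :=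
    (((Real.smoothTransition.contDiff (n := 1)).differentiable (by simp)) _).hasDerivAt
  have h5 := h4.comp_hasFDerivAt x h2
  unfold pd
  have h6 : HasFDerivAt (cg n σ R kap Gs) (deriv Real.smoothTransition
      ((R * (gx n σ x - Gs) + Real.log kap / 2) / (Real.log kap / 4)) •
      ((Real.log kap / 4)⁻¹ • (R • fderiv ℝ (gx n σ) x))) x := h5
  rw [h6.fderiv]
  simp only [smul_apply, smul_eq_mul]
  ring

theorem cg_one {σ R kap Gs : ℝ} {x : V n} (hL : 0 < Real.log kap)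
    (h : -(Real.log kap / 4) ≤ R * (gx n σ x - Gs)) : cg n σ R kap Gs x = 1 := by
  unfold cg
  refine Real.smoothTransition.one_of_one_le ?_
  rw [one_le_div (by positivity)]
  linarith

theorem cg_zero {σ R kap Gs : ℝ} {x : V n} (hL : 0 < Real.log kap)
    (h : R * (gx n σ x - Gs) ≤ -(Real.log kap / 2)) : cg n σ R kap Gs x = 0 := by
  unfold cg
  refine Real.smoothTransition.zero_of_nonpos ?_
  exact div_nonpos_of_nonpos_of_nonneg (by linarith) (by positivity)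

theorem cg_le {σ R kap Gs : ℝ} (x : V n) : 0 ≤ cg n σ R kap Gs x ∧ cg n σ R kap Gs x ≤ 1 :=
  ⟨Real.smoothTransition.nonneg _, Real.smoothTransition.le_one _⟩

/-- The bound of the gradient of the depth cut-off. -/
theorem cg_bd {σ R kap Gs M D : ℝ} {x : V n} (hx : HY.sq x ≠ 0) (hL : 4 ≤ Real.log kap)
    (hR : 0 ≤ R) (hM : ‖fderiv ℝ (gx n σ) x‖ ≤ M) (hD : ∀ t, |deriv Real.smoothTransition t| ≤ D)
    (hD0 : ∀ t, (t < 0 ∨ 1 < t) → deriv Real.smoothTransition t = 0) (i : Fin n) :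
    |pd i (cg n σ R kap Gs) x| ≤ D * (R * M) ∧
      (-(Real.log kap / 4) < R * (gx n σ x - Gs) → pd i (cg n σ R kap Gs) x = 0) := by
  have hM0 : 0 ≤ M := (norm_nonneg _).trans hM
  have hD1 : 0 ≤ D := (abs_nonneg _).trans (hD 0)
  rw [cg_pd hx]
  constructor
  · rw [abs_mul]
    refine mul_le_mul (hD _) ?_ (abs_nonneg _) hD1
    rw [abs_div, abs_of_pos (by linarith : 0 < Real.log kap / 4), abs_mul, abs_of_nonneg hR]
    have h1 : R * |pd i (gx n σ) x| ≤ R * M := mul_le_mul_of_nonneg_left (pd_le hM i) hR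
    exact (div_le_self (by positivity) (by linarith)).trans h1
  · intro h
    rw [hD0 _ (Or.inr ?_), zero_mul]
    rw [one_lt_div (by linarith)]
    linarith

/-- The lower bound near the selected point. -/
theorem near_ps {s₁ s₂ : MF n} (hs₁ : SmM s₁) (hs₂ : SmM s₂) {σ N R Gs δ B M r : ℝ} {ps : V n}
    (hps : ps ∈ Ac n 1 (11 / 10)) (hGs : Gs = gx n σ ps) (hδ : 0 < δ)
    (hδe : nh (fun x => s₂ x - s₁ x) ps = δ ^ 2) (hN : 1 ≤ N) (hR : 1 ≤ R) (hM1 : 1 ≤ M)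
    (hM : ∀ x ∈ Ac n (4 / 5) 22, ‖fderiv ℝ (gx n σ) x‖ ≤ M) (hB : 0 ≤ B)
    (hj : ∀ i j, ∀ x ∈ Ac n (4 / 5) 22, ‖fderiv ℝ (fun y => s₂ y i j - s₁ y i j) x‖ *
      Real.exp (N * R * (gx n σ x - Gs)) ≤ B * δ) (hr : 0 < r) (hr1 : (n + 1) * r ≤ 1 / 100)
    (hr2 : N * R * M * r ≤ 1) (hr3 : 6 * n * B * r ≤ 1) {x : V n} (hx : x ∈ Metric.ball ps r) :
    x ∈ Ac n (99 / 100) (12 / 10) ∧ |gx n σ x - Gs| ≤ M * r ∧
      δ ^ 2 / 4 ≤ nh (fun x => s₂ x - s₁ x) x := by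
  have hsub : ∀ y ∈ Metric.ball ps r, y ∈ Ac n (99 / 100) (12 / 10) := by
    intro y hy
    have h1 := rt_ball hr.le hy
    exact ⟨by linarith [h1.1, hps.1], by linarith [h1.2, hps.2]⟩
  have hsub2 : ∀ y ∈ Metric.ball ps r, y ∈ Ac n (4 / 5) 22 := fun y hy =>
    ⟨le_trans (by norm_num) (hsub y hy).1, (hsub y hy).2.trans (by norm_num)⟩
  have hne : ∀ y ∈ Metric.ball ps r, HY.sq y ≠ 0 := by
    intro y hy h
    have := (hsub y hy).1
    rw [h, Real.sqrt_zero] at this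
    linarith
  have hpb : ps ∈ Metric.ball ps r := Metric.mem_ball_self hr
  have hxd : ∀ y ∈ Metric.ball ps r, ‖y - ps‖ ≤ r := fun y hy => by
    rw [← dist_eq_norm]; exact (Metric.mem_ball.1 hy).le
  have hg : ∀ y ∈ Metric.ball ps r, |gx n σ y - Gs| ≤ M * r := by
    intro y hy
    have h1 := Convex.norm_image_sub_le_of_norm_fderiv_le (𝕜 := ℝ) (f := gx n σ) (C := M)
      (s := Metric.ball ps r) (fun z hz => (gx_cd σ (hne z hz)).differentiableAt (by simp))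
      (fun z hz => hM z (hsub2 z hz)) (convex_ball ps r) hpb hy
    rw [hGs]
    exact h1.trans (mul_le_mul_of_nonneg_left (hxd y hy) (by linarith))
  refine ⟨hsub x hx, hg x hx, ?_⟩
  have hexp : ∀ y ∈ Metric.ball ps r, Real.exp (-1) ≤ Real.exp (N * R * (gx n σ y - Gs)) := by
    intro y hy
    refine Real.exp_le_exp.2 ?_
    have h1 := (abs_le.1 (hg y hy)).1
    have h2 : 0 < N * R := by positivity
    nlinarith
  have hfd : ∀ i j, ∀ y ∈ Metric.ball ps r, ‖fderiv ℝ (fun y => s₂ y i j - s₁ y i j) y‖ ≤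
      3 * B * δ := by
    intro i j y hy
    have h1 := hj i j y (hsub2 y hy)
    have h2 := hexp y hy
    have h3 : ‖fderiv ℝ (fun y => s₂ y i j - s₁ y i j) y‖ * Real.exp (-1) ≤ B * δ :=
      (mul_le_mul_of_nonneg_left h2 (norm_nonneg _)).trans h1
    have h4 : (1 : ℝ) / 3 ≤ Real.exp (-1) := by
      rw [Real.exp_neg, one_div]
      exact inv_anti₀ (Real.exp_pos 1) (by have := Real.exp_one_lt_d9; linarith)
    nlinarith [norm_nonneg (fderiv ℝ (fun y => s₂ y i j - s₁ y i j) y)]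
  have hdf : ∀ i j, |(s₂ x i j - s₁ x i j) - (s₂ ps i j - s₁ ps i j)| ≤ 3 * B * δ * r := by
    intro i j
    have h1 := Convex.norm_image_sub_le_of_norm_fderiv_le (𝕜 := ℝ)
      (f := fun y => s₂ y i j - s₁ y i j) (C := 3 * B * δ) (s := Metric.ball ps r)
      (fun z _ => ((hs₂ i j).sub (hs₁ i j)).differentiable (by simp) z) (hfd i j)
      (convex_ball ps r) hpb hx
    exact h1.trans (mul_le_mul_of_nonneg_left (hxd x hx) (by positivity))
  have e1 : nh (fun x => s₂ x - s₁ x) ps = ∑ i, ∑ j, (s₂ ps i j - s₁ ps i j) ^ 2 := rfl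
  have e2 : nh (fun x => s₂ x - s₁ x) x = ∑ i, ∑ j, (s₂ x i j - s₁ x i j) ^ 2 := rfl
  rw [e2]
  rw [e1] at hδe
  have h1 : ∀ i j, (s₂ ps i j - s₁ ps i j) ^ 2 / 2 - (3 * B * δ * r) ^ 2 ≤
      (s₂ x i j - s₁ x i j) ^ 2 := by
    intro i j
    have h2 := hdf i j
    have h3 : ((s₂ x i j - s₁ x i j) - (s₂ ps i j - s₁ ps i j)) ^ 2 ≤ (3 * B * δ * r) ^ 2 :=
      sq_le_sq' (by linarith [(abs_le.1 h2).1]) (abs_le.1 h2).2
    nlinarith [sq_nonneg ((s₂ x i j - s₁ x i j) - (s₂ ps i j - s₁ ps i j) / 2)]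
  have h2 : ∑ i, ∑ j, ((s₂ ps i j - s₁ ps i j) ^ 2 / 2 - (3 * B * δ * r) ^ 2) ≤
      ∑ i, ∑ j, (s₂ x i j - s₁ x i j) ^ 2 :=
    Finset.sum_le_sum fun i _ => Finset.sum_le_sum fun j _ => h1 i j
  have h3 : ∑ i : Fin n, ∑ j : Fin n, ((s₂ ps i j - s₁ ps i j) ^ 2 / 2 - (3 * B * δ * r) ^ 2) =
      δ ^ 2 / 2 - (n * (3 * B * δ * r)) ^ 2 := by
    simp only [Finset.sum_sub_distrib, ← Finset.sum_div, hδe, Finset.sum_const, Finset.card_univ,
      Fintype.card_fin, nsmul_eq_mul]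
    ring
  rw [h3] at h2
  refine le_trans ?_ h2
  have h4 : n * (3 * B * δ * r) ≤ δ / 2 := by
    have : n * (3 * B * δ * r) = (6 * n * B * r) * (δ / 2) := by ring
    rw [this]
    exact mul_le_of_le_one_left (by positivity) hr3
  have h5 : 0 ≤ (n : ℝ) * (3 * B * δ * r) := by positivity
  nlinarith

/-- The upper bound of the weighted norm. -/
theorem up_nh {s₁ s₂ : MF n} {N R Gs B δ g E : ℝ} {x : V n} (_ : 0 ≤ B * δ * E)
    (h : ∀ i j, |s₂ x i j - s₁ x i j| * Real.exp (N * R * (g - Gs)) ≤ B * δ * E) :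
    nh (fun x => s₂ x - s₁ x) x * Real.exp (2 * (N * R * (g - Gs))) ≤ (n * (B * δ * E)) ^ 2 := by
  have e2 : nh (fun x => s₂ x - s₁ x) x = ∑ i, ∑ j, (s₂ x i j - s₁ x i j) ^ 2 := rfl
  have e3 : Real.exp (2 * (N * R * (g - Gs))) = Real.exp (N * R * (g - Gs)) ^ 2 := by
    rw [← Real.exp_nat_mul]; congr 1
  rw [e2, e3, Finset.sum_mul]
  have h1 : ∀ i j, (s₂ x i j - s₁ x i j) ^ 2 * Real.exp (N * R * (g - Gs)) ^ 2 ≤
      (B * δ * E) ^ 2 := by
    intro i j
    rw [← mul_pow]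
    refine sq_le_sq' ?_ ?_
    · have h2 := h i j
      have h3 := neg_abs_le (s₂ x i j - s₁ x i j)
      nlinarith [Real.exp_pos (N * R * (g - Gs))]
    · exact (mul_le_mul_of_nonneg_right (le_abs_self _) (Real.exp_pos _).le).trans (h i j)
  calc ∑ i, (∑ j, (s₂ x i j - s₁ x i j) ^ 2) * Real.exp (N * R * (g - Gs)) ^ 2
      ≤ ∑ _i : Fin n, ∑ _j : Fin n, (B * δ * E) ^ 2 := by
        refine Finset.sum_le_sum fun i _ => ?_
        rw [Finset.sum_mul]
        exact Finset.sum_le_sum fun j _ => h1 i j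
    _ = (n * (B * δ * E)) ^ 2 := by
        simp only [Finset.sum_const, Finset.card_univ, Fintype.card_fin, nsmul_eq_mul]
        ring

theorem nh_zero {s₁ s₂ : MF n} {x : V n} (h : s₂ x = s₁ x) : nh (fun x => s₂ x - s₁ x) x = 0 := by
  unfold nh
  simp [h]

theorem tfp_zero {s₁ s₂ : MF n} {x : V n} (h : s₂ x = s₁ x) :
    nh (tfp s₁ (fun x => s₂ x - s₁ x)) x = 0 := by
  have h1 : ipm s₁ (fun x => s₂ x - s₁ x) x = 0 := by
    unfold ipm
    simp [h]
  unfold nh tfp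
  rw [h1]
  simp [h]

end Vale.Agent.P088.R2.H238.S3.P3
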