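import Vale.Agent.P088.R2.H238.S3.P3b

/-!
# P088, stage 3, row P3: the lower bound of the main term
-/

open MeasureTheory Set
open scoped ContDiff Matrix Topology

noncomputable section

namespace Vale.Agent.P088.R2.H238.S3.P3

open Vale.Agent.P088.LR Vale.Agent.P088.HY Vale.Agent.P088.HY.T3 Vale.Agent.P088.HY.T4
  Vale.Agent.P088.R2.H238.S3

variable {n : ℕ}

theorem pow_rpow {x a : ℝ} (hx : 0 < x) (k : ℕ) : (x ^ a) ^ k = x ^ (a * k) := by
  rw [← Real.rpow_natCast, ← Real.rpow_mul hx.le]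

/-- The final arithmetic. -/
theorem fin_ar {A₁ A₂ R kap C s q I δ : ℝ} (hA₁ : 0 ≤ A₁) (hA₂ : 0 ≤ A₂) (hR : 1 ≤ R)
    (hk : 1 ≤ kap) (hC : 0 ≤ C) (hs0 : 0 < s) (hs : s ≤ 1) (hI : 0 ≤ I)
    (hq : 2 * (n + 3) ≤ q) (hRA : 2 * (A₁ * A₂) ≤ R)
    (hkR : R ^ ((n + 1 : ℝ) + C * (n + 2) + 1) ≤ kap)
    (h : δ ^ 2 ≤ A₁ * (R ^ (n + 1) * (R ^ C) ^ n * (kap ^ s) ^ n) *
      (I + A₂ * ((R ^ C) ^ 2 * (kap ^ s) ^ 2 * kap ^ (-(q / 2))) * δ ^ 2)) :
    δ ^ 2 ≤ max (2 * A₁) ((n + 1 : ℝ) + C * n) * R ^ max (2 * A₁) ((n + 1 : ℝ) + C * n) *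
      kap ^ ((n + 4) * s) * I := by
  have hR0 : 0 < R := by linarith
  have hk0 : 0 < kap := by linarith
  obtain ⟨X, hX⟩ : ∃ X : ℝ, X = R ^ (n + 1) * (R ^ C) ^ n * (kap ^ s) ^ n := ⟨_, rfl⟩
  obtain ⟨Y, hY⟩ : ∃ Y : ℝ, Y = (R ^ C) ^ 2 * (kap ^ s) ^ 2 * kap ^ (-(q / 2)) := ⟨_, rfl⟩
  rw [← hX, ← hY] at h
  have hX0 : 0 ≤ X := by rw [hX]; positivity
  have hY0 : 0 ≤ Y := by rw [hY]; positivity
  -- the error
  have hXY : A₁ * A₂ * (X * Y) ≤ 1 / 2 := by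
    have e1 : X * Y = R ^ ((n + 1 : ℝ) + C * (n + 2)) * kap ^ (s * (n + 2) - q / 2) := by
      rw [hX, hY, pow_rpow hR0, pow_rpow hk0, pow_rpow hR0, pow_rpow hk0]
      have e2 : R ^ (n + 1) = R ^ ((n + 1 : ℝ)) := by
        rw [← Real.rpow_natCast]; push_cast; rfl
      rw [e2]
      calc R ^ ((n : ℝ) + 1) * R ^ (C * n) * kap ^ (s * n) *
            (R ^ (C * ((2 : ℕ) : ℝ)) * kap ^ (s * ((2 : ℕ) : ℝ)) * kap ^ (-(q / 2)))
          = (R ^ ((n : ℝ) + 1) * R ^ (C * n) * R ^ (C * ((2 : ℕ) : ℝ))) *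
            (kap ^ (s * n) * kap ^ (s * ((2 : ℕ) : ℝ)) * kap ^ (-(q / 2))) := by ring
        _ = _ := by
          rw [← Real.rpow_add hR0, ← Real.rpow_add hR0, ← Real.rpow_add hk0, ← Real.rpow_add hk0]
          congr 2
          · push_cast; ring
          · push_cast; ring
    have e3 : kap ^ (s * (n + 2) - q / 2) ≤ kap ^ (-1 : ℝ) := by
      refine Real.rpow_le_rpow_of_exponent_le hk ?_
      have : s * (n + 2) ≤ 1 * (n + 2) := mul_le_mul_of_nonneg_right hs (by positivity)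
      linarith
    have e4 : kap ^ (-1 : ℝ) ≤ (R ^ ((n + 1 : ℝ) + C * (n + 2) + 1))⁻¹ := by
      rw [Real.rpow_neg_one]
      exact inv_anti₀ (by positivity) hkR
    have e5 : R ^ ((n + 1 : ℝ) + C * (n + 2) + 1) = R ^ ((n + 1 : ℝ) + C * (n + 2)) * R := by
      rw [Real.rpow_add hR0, Real.rpow_one]
    have e6 : X * Y ≤ R⁻¹ := by
      rw [e1]
      calc R ^ ((n + 1 : ℝ) + C * (n + 2)) * kap ^ (s * (n + 2) - q / 2)
          ≤ R ^ ((n + 1 : ℝ) + C * (n + 2)) * (R ^ ((n + 1 : ℝ) + C * (n + 2)) * R)⁻¹ := by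
            refine mul_le_mul_of_nonneg_left (e3.trans ?_) (by positivity)
            rw [← e5]; exact e4
        _ = R⁻¹ := by
            have : R ^ ((n + 1 : ℝ) + C * (n + 2)) ≠ 0 := (Real.rpow_pos_of_pos hR0 _).ne'
            field_simp
    calc A₁ * A₂ * (X * Y) ≤ A₁ * A₂ * R⁻¹ := mul_le_mul_of_nonneg_left e6 (by positivity)
      _ ≤ 1 / 2 := by
          rw [← div_eq_mul_inv, div_le_iff₀ hR0]; linarith
  have h1 : δ ^ 2 ≤ 2 * A₁ * X * I := by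
    have h2 : A₁ * X * (I + A₂ * Y * δ ^ 2) = A₁ * X * I + A₁ * A₂ * (X * Y) * δ ^ 2 := by ring
    rw [h2] at h
    have h3 : A₁ * A₂ * (X * Y) * δ ^ 2 ≤ 1 / 2 * δ ^ 2 :=
      mul_le_mul_of_nonneg_right hXY (sq_nonneg _)
    linarith
  refine h1.trans (mul_le_mul_of_nonneg_right ?_ hI)
  have e7 : X = R ^ ((n + 1 : ℝ) + C * n) * kap ^ (s * n) := by
    rw [hX, pow_rpow hR0, pow_rpow hk0]
    have e2 : R ^ (n + 1) = R ^ ((n + 1 : ℝ)) := by
      rw [← Real.rpow_natCast]; push_cast; rfl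
    rw [e2, ← Real.rpow_add hR0]
  rw [e7, ← mul_assoc]
  refine mul_le_mul (mul_le_mul (le_max_left _ _) (Real.rpow_le_rpow_of_exponent_le hR
    (le_max_right _ _)) (by positivity) ?_) (Real.rpow_le_rpow_of_exponent_le hk ?_)
    (by positivity) ?_
  · exact le_trans (by positivity) (le_max_left _ _)
  · have : (0 : ℝ) ≤ n := by positivity
    nlinarith
  · exact mul_nonneg (le_trans (by positivity) (le_max_left _ _)) (by positivity)

theorem hintf {χ g F : V n → ℝ} (hχs : ContDiff ℝ ∞ χ) (hχc : HasCompactSupport χ)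
    (hgs : ContDiff ℝ ∞ g) (ρ : ℝ) (hF : Continuous F) :
    Integrable fun x => χ x ^ 2 * F x * Real.exp (2 * ρ * g x) := by
  refine Continuous.integrable_of_hasCompactSupport ?_ ?_
  · exact ((hχs.continuous.pow 2).mul hF).mul (continuous_const.mul hgs.continuous).rexp
  · exact ((hχc.comp_left (g := fun t : ℝ => t ^ 2) (by norm_num)).mul_right).mul_right

/-- (1) the lower bound -/
theorem lowI {h : MF n} (hhs : SmM h) {χ g : V n → ℝ} (hχs : ContDiff ℝ ∞ χ)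
    (hχc : HasCompactSupport χ) (hgs : ContDiff ℝ ∞ g) {σ N R ρ Gs δ r M g₀ : ℝ} {ps : V n}
    (hg₀ : 0 < g₀) (hrp : 0 < r) (hN : 1 ≤ N) (hR : 1 ≤ R) (hr2 : N * R * M * r ≤ 1)
    (hnear : ∀ x ∈ Metric.ball ps r, x ∈ Ac n (4 / 5) 22 ∧ |gx n σ x - Gs| ≤ M * r ∧
      δ ^ 2 / 4 ≤ nh h x ∧ χ x = 1)
    (hge2 : ∀ x ∈ Ac n (4 / 5) 22, g₀ * Real.exp (2 * ρ * g x) =
      Real.exp (2 * (N * R * (gx n σ x - Gs)))) :
    (2 * r) ^ n * (δ ^ 2 / 4 * Real.exp (-2)) ≤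
      g₀ * ∫ x, χ x ^ 2 * nh h x * Real.exp (2 * ρ * g x) := by
  rw [← integral_const_mul]
  have hi1 : Integrable fun x => g₀ * (χ x ^ 2 * nh h x * Real.exp (2 * ρ * g x)) :=
    (hintf hχs hχc hgs ρ (nh_c hhs)).const_mul g₀
  have h1 : ∫ x in Metric.ball ps r, (δ ^ 2 / 4 * Real.exp (-2)) ≤
      ∫ x in Metric.ball ps r, g₀ * (χ x ^ 2 * nh h x * Real.exp (2 * ρ * g x)) := by
    refine setIntegral_mono_on (integrableOn_const measure_ball_lt_top.ne) hi1.integrableOn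
      measurableSet_ball fun x hx => ?_
    obtain ⟨k5, k2, k3, k6⟩ := hnear x hx
    rw [k6, one_pow, one_mul]
    have k7 : g₀ * (nh h x * Real.exp (2 * ρ * g x)) =
        nh h x * (g₀ * Real.exp (2 * ρ * g x)) := by ring
    rw [k7, hge2 x k5]
    refine mul_le_mul k3 (Real.exp_le_exp.2 ?_) (Real.exp_pos _).le (nh_nn _ _)
    have := (abs_le.1 k2).1
    have h3 : 0 ≤ N * R := by positivity
    nlinarith
  rw [setIntegral_const, smul_eq_mul] at h1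
  have h2 : volume.real (Metric.ball ps r) = (2 * r) ^ n := by
    unfold Measure.real
    rw [Real.volume_pi_ball ps hrp, Fintype.card_fin, ENNReal.toReal_ofReal (by positivity)]
  rw [h2] at h1
  refine h1.trans (setIntegral_le_integral hi1 (Filter.Eventually.of_forall fun x => ?_))
  show 0 ≤ g₀ * (χ x ^ 2 * nh h x * Real.exp (2 * ρ * g x))
  have := nh_nn h x
  positivity

/-- (2) the main term -/
theorem mainI (hn1 : 1 ≤ n) {s₁ s₂ : MF n} (hs₁ : SmM s₁) (hs₂ : SmM s₂)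
    (hnr : ∀ x, ∀ i j, |s₁ x i j - (1 : Matrix (Fin n) (Fin n) ℝ) i j| ≤ 1 / (8 * (n + 1)))
    {χ g : V n → ℝ} (hχs : ContDiff ℝ ∞ χ) (hgs : ContDiff ℝ ∞ g)
    {σ N R kap ρ Gs g₀ : ℝ} (hχle : ∀ x, χ x ^ 2 ≤ cg n σ R kap Gs x ^ 2)
    (hfar : ∀ x, 12 ≤ √(HY.sq x) → cg n σ R kap Gs x = 0)
    (hin : ∀ x, √(HY.sq x) < 1 → s₂ x = s₁ x)
    (hge2 : ∀ x ∈ Ac n (4 / 5) 22, g₀ * Real.exp (2 * ρ * g x) =
      Real.exp (2 * (N * R * (gx n σ x - Gs)))) :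
    g₀ * ∫ x, χ x ^ 2 * nh (tfp s₁ (fun x => s₂ x - s₁ x)) x * Real.exp (2 * ρ * g x) ≤
      It s₁ s₂ σ N R kap Gs := by
  obtain ⟨h, hh⟩ : ∃ h : MF n, h = fun x => s₂ x - s₁ x := ⟨_, rfl⟩
  rw [← hh]
  have hhs : SmM h := by
    intro i j
    have : (fun x => h x i j) = fun x => s₂ x i j - s₁ x i j := by rw [hh]; rfl
    rw [this]
    exact (hs₂ i j).sub (hs₁ i j)
  have hz : ∀ x ∉ Ac n (99 / 100) 12, χ x ^ 2 * nh (tfp s₁ h) x * Real.exp (2 * ρ * g x) = 0 := by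
    intro x hx
    by_cases h1 : √(HY.sq x) < 1
    · have : nh (tfp s₁ h) x = 0 := by rw [hh]; exact tfp_zero (hin x h1)
      rw [this]; ring
    · have h2 : 12 ≤ √(HY.sq x) := by
        by_contra h3
        push Not at h1 h3
        exact hx ⟨by linarith, h3.le⟩
      have h3 := hχle x
      rw [hfar x h2] at h3
      have h4 : χ x ^ 2 = 0 := le_antisymm (by linarith) (sq_nonneg _)
      rw [h4]; ring
  have hAm : MeasurableSet (Ac n (99 / 100) 12) := (isClosed_Ac _ _).measurableSet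
  have hAs : ∀ x ∈ Ac n (99 / 100) 12, x ∈ Ac n (4 / 5) 22 := fun x hx =>
    ⟨le_trans (by norm_num) hx.1, hx.2.trans (by norm_num)⟩
  have hAn : ∀ x ∈ Ac n (99 / 100) 12, HY.sq x ≠ 0 := by
    intro x hx h
    have := hx.1
    rw [h, Real.sqrt_zero] at this
    linarith
  have ct : ContinuousOn (nh (tfp s₁ h)) (Ac n (99 / 100) 12) := by
    unfold nh
    refine continuousOn_finsetSum _ fun i _ => continuousOn_finsetSum _ fun j _ => ?_
    refine ContinuousOn.pow ?_ 2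
    have : (fun x => tfp s₁ h x i j) = fun x => h x i j - ipm s₁ h x / ipm s₁ s₁ x * s₁ x i j :=
      rfl
    rw [this]
    refine (hhs i j).continuous.continuousOn.sub (ContinuousOn.mul ?_
      (hs₁ i j).continuous.continuousOn)
    exact (ipm_s hs₁ hhs).continuous.continuousOn.div
      (ipm_s hs₁ hs₁).continuous.continuousOn fun x _ => (ipm_pos hn1 (hnr x)).ne'
  have cg' : ContinuousOn (cg n σ R kap Gs) (Ac n (99 / 100) 12) := fun x hx =>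
    (cg_cd (hAn x hx)).continuousAt.continuousWithinAt
  have cx : ContinuousOn (gx n σ) (Ac n (99 / 100) 12) := fun x hx =>
    (gx_cd σ (hAn x hx)).continuousAt.continuousWithinAt
  rw [← setIntegral_eq_integral_of_forall_compl_eq_zero hz, ← integral_const_mul]
  unfold It
  rw [← hh]
  refine setIntegral_mono_on ?_ ?_ hAm fun x hx => ?_
  · refine ContinuousOn.integrableOn_compact (isCompact_Ac _ _) ?_
    exact continuousOn_const.mul (((hχs.continuous.pow 2).continuousOn.mul ct).mul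
      (continuous_const.mul hgs.continuous).rexp.continuousOn)
  · refine ContinuousOn.integrableOn_compact (isCompact_Ac _ _) ?_
    exact ((cg'.pow 2).mul ct).mul (continuousOn_const.mul
      (continuousOn_const.mul (cx.sub continuousOn_const))).rexp
  · have k7 : g₀ * (χ x ^ 2 * nh (tfp s₁ h) x * Real.exp (2 * ρ * g x)) =
        χ x ^ 2 * nh (tfp s₁ h) x * (g₀ * Real.exp (2 * ρ * g x)) := by ring
    rw [k7, hge2 x (hAs x hx)]
    refine mul_le_mul_of_nonneg_right (mul_le_mul_of_nonneg_right (hχle x) (nh_nn _ _))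
      (Real.exp_pos _).le

/-- (3) the error -/
theorem errI {s₁ s₂ : MF n} (hs₁ : SmM s₁) (hs₂ : SmM s₂)
    {χ g : V n → ℝ} (hχs : ContDiff ℝ ∞ χ) (hgs : ContDiff ℝ ∞ g) {Oζ : Set (V n)}
    (z4 : IsOpen Oζ) (z5 : Ac n (99 / 100) 12 ⊆ Oζ)
    {σ N R kap ρ Gs g₀ M D L B δ q : ℝ} (hχ1 : ∀ x ∈ Oζ, χ x = cg n σ R kap Gs x)
    (hχle : ∀ x, χ x ^ 2 ≤ cg n σ R kap Gs x ^ 2)
    (hfar : ∀ x, 12 ≤ √(HY.sq x) → cg n σ R kap Gs x = 0)
    (hin : ∀ x, √(HY.sq x) < 1 → s₂ x = s₁ x)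
    (hge2 : ∀ x ∈ Ac n (4 / 5) 22, g₀ * Real.exp (2 * ρ * g x) =
      Real.exp (2 * (N * R * (gx n σ x - Gs)))) (hL : L = Real.log kap) (hL4 : 4 ≤ L)
    (hkp : 0 < kap) (hRp : 0 < R) (hq0 : 0 ≤ q) (hB0 : 0 ≤ B) (hδ0 : 0 < δ) (hD1 : 0 < D)
    (hM1 : 1 ≤ M) (hM : ∀ x ∈ Ac n (4 / 5) 22, ‖fderiv ℝ (gx n σ) x‖ ≤ M)
    (hD : ∀ t, |deriv Real.smoothTransition t| ≤ D)
    (hDz : ∀ t, (t < 0 ∨ 1 < t) → deriv Real.smoothTransition t = 0)
    (hj0 : ∀ i j, ∀ x ∈ Ac n (4 / 5) 22, |s₂ x i j - s₁ x i j| *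
      Real.exp (N * R * (gx n σ x - Gs)) ≤ B * δ * Real.exp (-(q * R * |gx n σ x - Gs|))) :
    g₀ * ∫ x, gq χ x * nh (fun x => s₂ x - s₁ x) x * Real.exp (2 * ρ * g x) ≤
      volume.real (Ac n 1 12) * (n * (D * (R * M)) ^ 2 * ((n * (B * δ)) ^ 2 *
        kap ^ (-(q / 2)))) := by
  obtain ⟨h, hh⟩ : ∃ h : MF n, h = fun x => s₂ x - s₁ x := ⟨_, rfl⟩
  have hhs : SmM h := by
    intro i j
    have : (fun x => h x i j) = fun x => s₂ x i j - s₁ x i j := by rw [hh]; rfl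
    rw [this]
    exact (hs₂ i j).sub (hs₁ i j)
  rw [← hh]
  have hqL : Real.exp (-(q * L / 2)) = kap ^ (-(q / 2)) := by
    rw [Real.rpow_def_of_pos hkp, ← hL]
    congr 1; ring
  obtain ⟨Er, hEr⟩ : ∃ e : ℝ, e = n * (D * (R * M)) ^ 2 * ((n * (B * δ)) ^ 2 *
    kap ^ (-(q / 2))) := ⟨_, rfl⟩
  have hEr0 : 0 ≤ Er := by rw [hEr]; positivity
  rw [← hEr]
  have hz : ∀ x ∉ Ac n 1 12, gq χ x * nh h x * Real.exp (2 * ρ * g x) = 0 := by
    intro x hx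
    by_cases h1 : √(HY.sq x) < 1
    · have : nh h x = 0 := by rw [hh]; exact nh_zero (hin x h1)
      rw [this]; ring
    · have h2 : 12 < √(HY.sq x) := by
        by_contra h3
        push Not at h1 h3
        exact hx ⟨h1, h3⟩
      have hU : IsOpen {y : V n | 12 < √(HY.sq y)} := isOpen_lt continuous_const cont_rt
      have h3 : ∀ i, pd i χ x = 0 := fun i => pd_zero_of hU (c := 0) (fun y hy => by
        have h4 := hχle y
        rw [hfar y (le_of_lt hy)] at h4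
        exact pow_eq_zero_iff (two_ne_zero) |>.1 (le_antisymm (by linarith) (sq_nonneg _))) h2 i
      have h4 : gq χ x = 0 := by
        unfold gq
        exact Finset.sum_eq_zero fun i _ => by rw [h3 i]; ring
      rw [h4]; ring
  have hpt : ∀ x ∈ Ac n 1 12, g₀ * (gq χ x * nh h x * Real.exp (2 * ρ * g x)) ≤ Er := by
    intro x hx
    have k1 : x ∈ Ac n (99 / 100) 12 := ⟨le_trans (by norm_num) hx.1, hx.2⟩
    have k2 : x ∈ Ac n (4 / 5) 22 := ⟨le_trans (by norm_num) hx.1, hx.2.trans (by norm_num)⟩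
    have k3 : HY.sq x ≠ 0 := by
      intro h
      have := hx.1
      rw [h, Real.sqrt_zero] at this
      linarith
    have k4 : ∀ i, pd i χ x = pd i (cg n σ R kap Gs) x := fun i =>
      pd_loc z4 (fun y hy => hχ1 y hy) (z5 k1) i
    have k5 := fun i => cg_bd (i := i) (σ := σ) (R := R) (kap := kap) (Gs := Gs) k3
      (by rw [← hL]; exact hL4) hRp.le (hM x k2) hD hDz
    have k7 : g₀ * (gq χ x * nh h x * Real.exp (2 * ρ * g x)) =
        gq χ x * (nh h x * (g₀ * Real.exp (2 * ρ * g x))) := by ring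
    rw [k7, hge2 x k2]
    have k8 : nh h x * Real.exp (2 * (N * R * (gx n σ x - Gs))) ≤
        (n * (B * δ * Real.exp (-(q * R * |gx n σ x - Gs|)))) ^ 2 := by
      rw [hh]
      exact up_nh (by positivity) fun i j => hj0 i j x k2
    have k9 : gq χ x ≤ n * (D * (R * M)) ^ 2 := by
      unfold gq
      calc ∑ i, pd i χ x ^ 2 ≤ ∑ _i : Fin n, (D * (R * M)) ^ 2 := by
            refine Finset.sum_le_sum fun i _ => ?_
            rw [k4 i]
            exact sq_le_sq' (by linarith [(abs_le.1 (k5 i).1).1]) (abs_le.1 (k5 i).1).2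
        _ = n * (D * (R * M)) ^ 2 := by
            rw [Finset.sum_const, Finset.card_univ, Fintype.card_fin, nsmul_eq_mul]
    have hgq0 : 0 ≤ gq χ x := Finset.sum_nonneg fun _ _ => sq_nonneg _
    by_cases hc : -(L / 4) < R * (gx n σ x - Gs)
    · have : gq χ x = 0 := by
        unfold gq
        refine Finset.sum_eq_zero fun i _ => ?_
        rw [k4 i, (k5 i).2 (by rw [← hL]; exact hc)]; ring
      rw [this, zero_mul]; exact hEr0
    · push Not at hc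
      rw [hEr]
      refine mul_le_mul k9 (k8.trans ?_) (mul_nonneg (nh_nn _ _) (Real.exp_pos _).le)
        (by positivity)
      have e1 : (n * (B * δ * Real.exp (-(q * R * |gx n σ x - Gs|)))) ^ 2 =
          (n * (B * δ)) ^ 2 * Real.exp (-(q * R * |gx n σ x - Gs|)) ^ 2 := by ring
      rw [e1]
      refine mul_le_mul_of_nonneg_left ?_ (sq_nonneg _)
      rw [← hqL, ← Real.exp_nat_mul]
      refine Real.exp_le_exp.2 ?_
      have e2 : L / 4 ≤ R * |gx n σ x - Gs| := by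
        have := neg_abs_le (gx n σ x - Gs)
        nlinarith
      push_cast
      nlinarith
  have hAm : MeasurableSet (Ac n 1 12) := (isClosed_Ac _ _).measurableSet
  rw [← setIntegral_eq_integral_of_forall_compl_eq_zero hz, ← integral_const_mul]
  have h1 : ∫ x in Ac n 1 12, g₀ * (gq χ x * nh h x * Real.exp (2 * ρ * g x)) ≤
      ∫ x in Ac n 1 12, Er := by
    refine setIntegral_mono_on ?_ (integrableOn_const (isCompact_Ac _ _).measure_lt_top.ne)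
      hAm hpt
    refine ContinuousOn.integrableOn_compact (isCompact_Ac _ _) (Continuous.continuousOn ?_)
    have cq : Continuous (gq χ) := by
      unfold gq
      exact continuous_finsetSum _ fun i _ => (cp hχs i).continuous.pow 2
    exact continuous_const.mul ((cq.mul (nh_c hhs)).mul
      (continuous_const.mul hgs.continuous).rexp)
  rw [setIntegral_const, smul_eq_mul] at h1
  exact h1

/-- The radius. -/
theorem radii {N R M C B Q P : ℝ} (hN : 1 ≤ N) (hR : 1 ≤ R) (hM : 1 ≤ M) (hC : 0 ≤ C)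
    (hQ : 1 ≤ Q) (hP : 1 ≤ P) (hB : B = C * Q * P) :
    ∃ r : ℝ, 0 < r ∧ 100 * (n + 1) * (1 + N) * M * (1 + C) * (R * Q * P) * r = 1 ∧
      (n + 1) * r ≤ 1 / 100 ∧ N * R * M * r ≤ 1 ∧ 6 * n * B * r ≤ 1 ∧ R * (M * r) ≤ 1 := by
  obtain ⟨K₀, hK₀⟩ : ∃ k : ℝ, k = 100 * (n + 1) * (1 + N) * M * (1 + C) := ⟨_, rfl⟩
  have hK₀p : 0 < K₀ := by rw [hK₀]; positivity
  have hRp : 0 < R := by linarith
  obtain ⟨T, hT⟩ : ∃ t : ℝ, t = R * Q * P := ⟨_, rfl⟩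
  rw [← hK₀, ← hT]
  have hRQ : R ≤ R * Q := le_mul_of_one_le_right hRp.le hQ
  have hRT : R ≤ T := by
    rw [hT]; exact hRQ.trans (le_mul_of_one_le_right (by positivity) hP)
  have hT1 : 1 ≤ T := by linarith
  have hBT : B ≤ C * T := by
    rw [hB, hT]
    have : C * (R * Q * P) = R * (C * Q * P) := by ring
    rw [this]
    exact le_mul_of_one_le_left (by positivity) hR
  obtain ⟨r, hr⟩ : ∃ r : ℝ, r = 1 / (K₀ * T) := ⟨_, rfl⟩
  have hrp : 0 < r := by rw [hr]; positivity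
  have hrT : K₀ * T * r = 1 := by rw [hr]; field_simp
  have hnn : (0 : ℝ) ≤ n := by positivity
  have hK1 : 100 * (n + 1) ≤ K₀ := by
    rw [hK₀]
    calc 100 * ((n : ℝ) + 1) = 100 * (n + 1) * 1 * 1 * 1 := by ring
      _ ≤ 100 * (n + 1) * (1 + N) * M * (1 + C) := by
          gcongr <;> linarith
  have hK2 : N * M ≤ K₀ := by
    rw [hK₀]
    calc N * M = 1 * N * M * 1 := by ring
      _ ≤ 100 * (n + 1) * (1 + N) * M * (1 + C) := by
          gcongr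
          · nlinarith
          · linarith
          · linarith
  have hK3 : 6 * n * C ≤ K₀ := by
    rw [hK₀]
    calc 6 * (n : ℝ) * C = 6 * n * 1 * 1 * C := by ring
      _ ≤ 100 * (n + 1) * (1 + N) * M * (1 + C) := by
          gcongr
          all_goals linarith
  have hK4 : M ≤ K₀ := le_trans (le_mul_of_one_le_left (by linarith) hN) hK2
  refine ⟨r, hrp, hrT, ?_, ?_, ?_, ?_⟩
  · have h1 : 100 * (n + 1) * r ≤ K₀ * T * r := by
      refine mul_le_mul_of_nonneg_right ?_ hrp.le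
      exact hK1.trans (le_mul_of_one_le_right hK₀p.le hT1)
    rw [hrT] at h1
    linarith
  · rw [← hrT]
    refine mul_le_mul_of_nonneg_right ?_ hrp.le
    calc N * R * M = N * M * R := by ring
      _ ≤ K₀ * T := mul_le_mul hK2 hRT hRp.le hK₀p.le
  · rw [← hrT]
    refine mul_le_mul_of_nonneg_right ?_ hrp.le
    calc 6 * n * B ≤ 6 * n * (C * T) := mul_le_mul_of_nonneg_left hBT (by positivity)
      _ = 6 * n * C * T := by ring
      _ ≤ K₀ * T := mul_le_mul_of_nonneg_right hK3 (by linarith)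
  · rw [← hrT]
    have : R * (M * r) = M * R * r := by ring
    rw [this]
    exact mul_le_mul_of_nonneg_right (mul_le_mul hK4 hRT hRp.le hK₀p.le) hrp.le

/-- The assembly of (1), (2), (3) and of the weighted estimate. -/
theorem asm {N R M C C₂ D q s kap δ r g₀ X₀ Y₀ Z₀ I Vo B K₀ ρ : ℝ} (hN : 1 ≤ N) (hR : 1 ≤ R)
    (hM1 : 1 ≤ M) (hC₂ : 1 ≤ C₂) (hD : 0 < D) (hkp : 0 < kap)
    (hg₀ : 0 < g₀) (hVo : 0 ≤ Vo) (hK₀ : 0 < K₀) (hρ : ρ = N * R)
    (hB : B = C * R ^ C * kap ^ s) (hrT : K₀ * (R * R ^ C * kap ^ s) * r = 1)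
    (hY₀ : 0 ≤ Y₀) (hZ₀ : 0 ≤ Z₀)
    (low : (2 * r) ^ n * (δ ^ 2 / 4 * Real.exp (-2)) ≤ g₀ * X₀) (main : g₀ * Y₀ ≤ I)
    (err : g₀ * Z₀ ≤ Vo * (n * (D * (R * M)) ^ 2 * ((n * (B * δ)) ^ 2 * kap ^ (-(q / 2)))))
    (key : X₀ ≤ Ctf n * ((1 + M ^ 2) ^ 2 * (1 + ρ ^ 4 * √(C₂ / ρ ^ 3) ^ 2)) *
      (Y₀ + (ρ ^ 2)⁻¹ * Z₀)) :
    δ ^ 2 ≤ 4 * Real.exp 2 * (K₀ / 2) ^ n * (Ctf n * ((1 + M ^ 2) ^ 2 * ((1 + C₂) * N))) *
      (R ^ (n + 1) * (R ^ C) ^ n * (kap ^ s) ^ n) *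
      (I + Vo * (n * (D * M) ^ 2 * (n * C) ^ 2) * ((R ^ C) ^ 2 * (kap ^ s) ^ 2 *
        kap ^ (-(q / 2))) * δ ^ 2) := by
  have hRp : 0 < R := by linarith
  have hCtf := Ctf_pos n
  have hρR : R ≤ ρ := by rw [hρ]; nlinarith
  have hρ1 : 1 ≤ ρ := by linarith
  have hκ : ρ ^ 4 * √(C₂ / ρ ^ 3) ^ 2 = C₂ * ρ := by
    rw [Real.sq_sqrt (by positivity)]
    field_simp
  rw [hκ] at key
  obtain ⟨A₃, hA₃⟩ : ∃ a : ℝ, a = Ctf n * ((1 + M ^ 2) ^ 2 * ((1 + C₂) * N)) := ⟨_, rfl⟩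
  have hA₃0 : 0 ≤ A₃ := by rw [hA₃]; positivity
  have hct : Ctf n * ((1 + M ^ 2) ^ 2 * (1 + C₂ * ρ)) ≤ A₃ * R := by
    have h1 : 1 + C₂ * ρ ≤ (1 + C₂) * ρ := by nlinarith
    have h2 : (1 + C₂) * ρ = (1 + C₂) * N * R := by rw [hρ]; ring
    have h3 := mul_le_mul_of_nonneg_left (mul_le_mul_of_nonneg_left (h1.trans h2.le)
      (by positivity : 0 ≤ (1 + M ^ 2) ^ 2)) hCtf.le
    refine h3.trans (le_of_eq ?_)
    rw [hA₃]; ring
  rw [← hA₃]
  obtain ⟨A₂, hA₂⟩ : ∃ a : ℝ, a = Vo * (n * (D * M) ^ 2 * (n * C) ^ 2) := ⟨_, rfl⟩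
  have hA₂0 : 0 ≤ A₂ := by rw [hA₂]; positivity
  rw [← hA₂]
  obtain ⟨U, hU⟩ : ∃ u : ℝ, u = (R ^ C) ^ 2 * (kap ^ s) ^ 2 * kap ^ (-(q / 2)) := ⟨_, rfl⟩
  have hU0 : 0 ≤ U := by rw [hU]; positivity
  rw [← hU]
  have err' : g₀ * Z₀ ≤ R ^ 2 * (A₂ * U * δ ^ 2) := by
    refine err.trans (le_of_eq ?_)
    rw [hA₂, hU, hB]; ring
  have k1 : g₀ * X₀ ≤ A₃ * R * (I + (ρ ^ 2)⁻¹ * (R ^ 2 * (A₂ * U * δ ^ 2))) := by
    calc g₀ * X₀ ≤ g₀ * (Ctf n * ((1 + M ^ 2) ^ 2 * (1 + C₂ * ρ)) * (Y₀ + (ρ ^ 2)⁻¹ * Z₀)) :=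
          mul_le_mul_of_nonneg_left key hg₀.le
      _ = Ctf n * ((1 + M ^ 2) ^ 2 * (1 + C₂ * ρ)) * (g₀ * Y₀ + (ρ ^ 2)⁻¹ * (g₀ * Z₀)) := by ring
      _ ≤ A₃ * R * (I + (ρ ^ 2)⁻¹ * (R ^ 2 * (A₂ * U * δ ^ 2))) := by
          refine mul_le_mul hct (add_le_add main (mul_le_mul_of_nonneg_left err' (by positivity)))
            (by positivity) (by positivity)
  have k2 : (ρ ^ 2)⁻¹ * (R ^ 2 * (A₂ * U * δ ^ 2)) ≤ A₂ * U * δ ^ 2 := by
    rw [← mul_assoc]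
    refine mul_le_of_le_one_left (by positivity) ?_
    rw [inv_mul_le_one₀ (by positivity)]
    exact pow_le_pow_left₀ hRp.le hρR 2
  have k3 : (2 * r) ^ n * (δ ^ 2 / 4 * Real.exp (-2)) ≤ A₃ * R * (I + A₂ * U * δ ^ 2) :=
    low.trans (k1.trans (mul_le_mul_of_nonneg_left (by linarith) (by positivity)))
  obtain ⟨T, hT⟩ : ∃ t : ℝ, t = R * R ^ C * kap ^ s := ⟨_, rfl⟩
  rw [← hT] at hrT
  have hT0 : 0 ≤ T := by rw [hT]; positivity
  have k4 : (2 * r) ^ n * ((K₀ / 2) ^ n * T ^ n) = 1 := by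
    rw [← mul_pow, ← mul_pow]
    have : 2 * r * (K₀ / 2 * T) = K₀ * T * r := by ring
    rw [this, hrT, one_pow]
  have k5 : δ ^ 2 = 4 * Real.exp 2 * ((K₀ / 2) ^ n * T ^ n) *
      ((2 * r) ^ n * (δ ^ 2 / 4 * Real.exp (-2))) := by
    have e1 : Real.exp 2 * Real.exp (-2) = 1 := by rw [← Real.exp_add]; norm_num
    calc δ ^ 2 = δ ^ 2 * 1 * 1 := by ring
      _ = δ ^ 2 * ((2 * r) ^ n * ((K₀ / 2) ^ n * T ^ n)) * (Real.exp 2 * Real.exp (-2)) := by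
          rw [k4, e1]
      _ = _ := by ring
  have k6 := mul_le_mul_of_nonneg_left k3
    (by positivity : 0 ≤ 4 * Real.exp 2 * ((K₀ / 2) ^ n * T ^ n))
  rw [← k5] at k6
  refine k6.trans (le_of_eq ?_)
  have e2 : T ^ n * R = R ^ (n + 1) * (R ^ C) ^ n * (kap ^ s) ^ n := by
    rw [hT, mul_pow, mul_pow]; ring
  rw [← e2]
  ring

end Vale.Agent.P088.R2.H238.S3.P3
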